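import Vale.Agent.P247.H74.Sta

/-!
# P247, package W-WIND: winding numbers (W1, ..., W7)
-/

open scoped ContDiff Topology
open Set MeasureTheory Filter Metric Asymptotics

noncomputable section

namespace Vale.Agent.P247.H74.WWIND

open Vale.Agent.P247.H74

/-- `2 π i`, as a complex number -/
abbrev tpi : ℂ := 2 * (Real.pi : ℂ) * Complex.I

/-- A nowhere vanishing continuous function on `ℂ` has a continuous logarithm. -/
theorem exists_log {F : ℂ → ℂ} (hF : Continuous F) (h0 : ∀ w, F w ≠ 0) :
    ∃ G : ℂ → ℂ, Continuous G ∧ ∀ w, F w = Complex.exp (G w) := by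
  obtain ⟨g, ⟨-, hg⟩, -⟩ := Complex.isCoveringMap_exp.existsUnique_continuousMap_lifts
    (⟨fun w => ⟨F w, h0 w⟩, by fun_prop⟩ : C(ℂ, {z : ℂ // z ≠ 0})) 0 (Complex.log (F 0))
    (by ext1; simpa using Complex.exp_log (h0 0))
  refine ⟨g, g.continuous, fun w => ?_⟩
  have h := congrArg Subtype.val (congrFun hg w)
  simpa using h.symm

/-- A continuous function on a preconnected set with values in `2 π i ℤ` is constant. -/
theorem const_of_exp {X : Type*} [TopologicalSpace X] {S : Set X} (hS : IsPreconnected S)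
    {F : X → ℂ} (hF : ContinuousOn F S) (h1 : ∀ x ∈ S, Complex.exp (F x) = 1) {x y : X}
    (hx : x ∈ S) (hy : y ∈ S) : F x = F y := by
  have key : ∀ x ∈ S, F x ∈ (AddSubgroup.zmultiples tpi : Set ℂ) := by
    intro x hx
    obtain ⟨n, hn⟩ := Complex.exp_eq_one_iff.1 (h1 x hx)
    exact ⟨n, by simp [hn, tpi]⟩
  have hd : IsDiscrete (AddSubgroup.zmultiples tpi : Set ℂ) :=
    ⟨NormedSpace.discreteTopology_zmultiples _⟩
  exact hS.constant_of_mapsTo hd hF key hx hy

/-- Periodic functions of the logarithm are continuous. -/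
theorem continuousAt_comp_log {h : ℂ → ℂ} (hh : Continuous h) (hp : ∀ w, h (w + tpi) = h w)
    {w : ℂ} (hw : w ≠ 0) : ContinuousAt (fun w => h (Complex.log w)) w := by
  have hper : ∀ (n : ℤ) w, h (w + n * tpi) = h w := by
    have hP : Function.Periodic h tpi := hp
    intro n w
    simpa using hP.int_mul n w
  by_cases hs : w ∈ Complex.slitPlane
  · exact hh.continuousAt.comp (continuousAt_clog hs)
  · have hs' : -w ∈ Complex.slitPlane := by
      rw [Complex.mem_slitPlane_iff] at hs ⊢
      push Not at hs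
      left
      have h1 : w.re ≠ 0 := by
        intro h
        apply hw
        apply Complex.ext
        · simpa using h
        · simpa using hs.2
      have h2 : w.re < 0 := lt_of_le_of_ne hs.1 h1
      simpa using h2
    have hcont : ContinuousAt (fun w => h (Complex.log (-w) + Real.pi * Complex.I)) w := by
      refine hh.continuousAt.comp ?_
      have : ContinuousAt (fun w : ℂ => Complex.log (-w)) w :=
        ContinuousAt.comp (f := fun w : ℂ => -w) (g := Complex.log) (continuousAt_clog hs')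
          continuous_neg.continuousAt
      exact this.add continuousAt_const
    refine hcont.congr ?_
    have hne : ∀ᶠ w' in 𝓝 w, w' ≠ 0 := isOpen_ne.mem_nhds hw
    filter_upwards [hne] with w' hw'
    have e1 : Complex.exp (Complex.log (-w') + Real.pi * Complex.I) = Complex.exp (Complex.log w')
        := by
      rw [Complex.exp_add, Complex.exp_pi_mul_I, Complex.exp_log (neg_ne_zero.2 hw'),
        Complex.exp_log hw']
      ring
    obtain ⟨n, hn⟩ := Complex.exp_eq_exp_iff_exists_int.1 e1
    rw [hn]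
    simpa [tpi] using hper n (Complex.log w')

theorem exp_log_zpow {w : ℂ} (hw : w ≠ 0) (m : ℤ) : Complex.exp (m * Complex.log w) = w ^ m := by
  rw [Complex.exp_int_mul, Complex.exp_log hw]

theorem sub_ne {c z : ℂ} {r : ℝ} (hr : 0 < r) (hz : z ∈ sphere c r) : z - c ≠ 0 := by
  intro h
  have h1 : dist z c = r := hz
  rw [dist_eq_norm, h, norm_zero] at h1
  exact hr.ne h1

/-- The main construction: descent of a logarithm. -/
theorem hasWinding_of_log {f : ℂ → ℂ} {c : ℂ} {r : ℝ} (hr : 0 < r) {k : ℤ} {G : ℂ → ℂ}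
    (hG : Continuous G) (hp : ∀ w, G (w + tpi) = G w + k * tpi)
    (hf : ∀ z ∈ sphere c r, f z = Complex.exp (G (Complex.log (z - c)))) :
    HasWinding f c r k := by
  have hh : Continuous fun w => G w - k * w := by fun_prop
  have hper : ∀ w, (fun w => G w - k * w) (w + tpi) = (fun w => G w - k * w) w := by
    intro w
    simp only [hp]
    ring
  refine ⟨fun z => (fun w => G w - k * w) (Complex.log (z - c)), ?_, fun z hz => ?_⟩
  · intro z hz
    have h1 := continuousAt_comp_log hh hper (sub_ne hr hz)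
    have h2 : ContinuousAt (fun z : ℂ => z - c) z := by fun_prop
    exact (ContinuousAt.comp (f := fun z : ℂ => z - c)
      (g := fun w => (fun w => G w - k * w) (Complex.log w)) h1 h2).continuousWithinAt
  · rw [hf z hz, ← exp_log_zpow (sub_ne hr hz), ← Complex.exp_add]
    congr 1
    ring

/-- a point of the circle in exponential form -/
theorem sphere_eq {c z : ℂ} {r : ℝ} (hr : 0 < r) (hz : z ∈ sphere c r) :
    z = c + r * Complex.exp ((Complex.log (z - c)).im * Complex.I) := by
  have h1 : ‖z - c‖ = r := by rw [← dist_eq_norm]; exact hz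
  have h2 := Complex.exp_log (sub_ne hr hz)
  rw [← Complex.re_add_im (Complex.log (z - c)), Complex.exp_add, Complex.log_re, h1,
    ← Complex.ofReal_exp, Real.exp_log hr] at h2
  rw [h2]
  ring

theorem W1 : W1_statement := by
  rintro f c r m m' hr ⟨g, hg, hgf⟩ ⟨g', hg', hgf'⟩
  set E : ℝ → ℂ := fun θ => c + r * Complex.exp (θ * Complex.I) with hE
  have hEs : ∀ θ, E θ ∈ sphere c r := by
    intro θ
    simp [hE, Complex.norm_exp_ofReal_mul_I, abs_of_pos hr]
  have hEc : Continuous E := by fun_prop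
  have hsub : ∀ θ, E θ - c = Complex.exp (Real.log r + θ * Complex.I) := by
    intro θ
    rw [Complex.exp_add, ← Complex.ofReal_exp, Real.exp_log hr]
    simp [hE]
  have h1 : ∀ θ ∈ (univ : Set ℝ), Complex.exp ((m - m' : ℤ) * (Real.log r + θ * Complex.I) +
      g (E θ) - g' (E θ)) = 1 := by
    intro θ _
    have h2 := (hgf _ (hEs θ)).symm.trans (hgf' _ (hEs θ))
    rw [hsub, ← Complex.exp_int_mul, ← Complex.exp_int_mul, ← Complex.exp_add,
      ← Complex.exp_add] at h2
    rw [show ((m - m' : ℤ) : ℂ) * (Real.log r + θ * Complex.I) + g (E θ) - g' (E θ) =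
      (m * (Real.log r + θ * Complex.I) + g (E θ)) -
        (m' * (Real.log r + θ * Complex.I) + g' (E θ)) by push_cast; ring,
      Complex.exp_sub, h2, div_self (Complex.exp_ne_zero _)]
  have hc : Continuous fun θ : ℝ => ((m - m' : ℤ) : ℂ) * (Real.log r + θ * Complex.I) +
      g (E θ) - g' (E θ) := by
    have a1 : Continuous fun θ => g (E θ) := hg.comp_continuous hEc hEs
    have a2 : Continuous fun θ => g' (E θ) := hg'.comp_continuous hEc hEs
    have a3 : Continuous fun θ : ℝ =>
        ((m - m' : ℤ) : ℂ) * (Real.log r + θ * Complex.I) := by fun_prop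
    exact (a3.add a1).sub a2
  have h3 := const_of_exp isPreconnected_univ hc.continuousOn h1 (mem_univ (0 : ℝ))
    (mem_univ (2 * Real.pi))
  have h4 : E (2 * Real.pi) = E 0 := by
    simp [hE, Complex.exp_two_pi_mul_I]
  rw [h4] at h3
  have h5 : ((m - m' : ℤ) : ℂ) * tpi = 0 := by
    push_cast at h3 ⊢
    linear_combination -h3
  have h6 : ((m - m' : ℤ) : ℂ) = 0 := by
    rcases mul_eq_zero.1 h5 with h | h
    · exact h
    · exact absurd h (by simp [tpi])
  have h7 : m - m' = 0 := by exact_mod_cast h6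
  omega

theorem W2 : W2_statement := by
  rintro f f' c r m m' hr ⟨g, hg, hgf⟩ ⟨g', hg', hgf'⟩
  refine ⟨fun z => g z + g' z, hg.add hg', fun z hz => ?_⟩
  show f z * f' z = (z - c) ^ (m + m') * Complex.exp (g z + g' z)
  rw [hgf z hz, hgf' z hz, zpow_add₀ (sub_ne hr hz), Complex.exp_add]
  ring

/-- the retraction to the closed disc -/
def ret (c : ℂ) (r : ℝ) (z : ℂ) : ℂ := c + ((r / max r ‖z - c‖ : ℝ) : ℂ) * (z - c)

theorem continuous_ret {c : ℂ} {r : ℝ} (hr : 0 < r) : Continuous (ret c r) := by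
  have h : ∀ z : ℂ, max r ‖z - c‖ ≠ 0 := fun z => (lt_of_lt_of_le hr (le_max_left _ _)).ne'
  have h1 : Continuous fun z : ℂ => r / max r ‖z - c‖ :=
    continuous_const.div (continuous_const.max (by fun_prop)) h
  unfold ret
  have h2 := Complex.continuous_ofReal.comp h1
  exact continuous_const.add (h2.mul (by fun_prop))

theorem ret_mem {c : ℂ} {r : ℝ} (hr : 0 < r) (z : ℂ) : ret c r z ∈ closedBall c r := by
  have h0 : 0 < max r ‖z - c‖ := lt_of_lt_of_le hr (le_max_left _ _)
  rw [mem_closedBall, dist_eq_norm, ret, add_sub_cancel_left, norm_mul, Complex.norm_real,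
    Real.norm_of_nonneg (by positivity), div_mul_eq_mul_div, div_le_iff₀ h0]
  exact mul_le_mul_of_nonneg_left (le_max_right _ _) hr.le

theorem ret_of_mem {c z : ℂ} {r : ℝ} (hr : 0 < r) (hz : z ∈ closedBall c r) : ret c r z = z := by
  have h1 : ‖z - c‖ ≤ r := by rw [← dist_eq_norm]; exact hz
  rw [ret, max_eq_left h1, div_self hr.ne']
  simp

/-- a nonvanishing continuous function on a closed disc has a continuous logarithm -/
theorem exists_log_closedBall {f : ℂ → ℂ} {c : ℂ} {r : ℝ} (hr : 0 < r)
    (hf : ContinuousOn f (closedBall c r)) (h0 : ∀ z ∈ closedBall c r, f z ≠ 0) :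
    ∃ g : ℂ → ℂ, Continuous g ∧ ∀ z ∈ closedBall c r, f z = Complex.exp (g z) := by
  obtain ⟨G, hG, hG1⟩ := exists_log (F := fun z => f (ret c r z))
    (hf.comp_continuous (continuous_ret hr) (ret_mem hr)) (fun w => h0 _ (ret_mem hr w))
  refine ⟨G, hG, fun z hz => ?_⟩
  rw [← hG1 z, ret_of_mem hr hz]

theorem W3 : W3_statement := by
  intro f c r hr hf h0
  obtain ⟨G, hG, hG1⟩ := exists_log_closedBall hr hf h0
  refine ⟨G, hG.continuousOn, fun z hz => ?_⟩
  rw [hG1 z (sphere_subset_closedBall hz)]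
  simp

/-- the integer period of a logarithm of a periodic function -/
theorem exists_period {F G : ℂ → ℂ} (hG : Continuous G) (hFG : ∀ w, F w = Complex.exp (G w))
    (hp : ∀ w, F (w + tpi) = F w) : ∃ k : ℤ, ∀ w, G (w + tpi) = G w + k * tpi := by
  have h1 : ∀ w ∈ (univ : Set ℂ), Complex.exp (G (w + tpi) - G w) = 1 := by
    intro w _
    rw [Complex.exp_sub, ← hFG, ← hFG, hp, div_self]
    rw [hFG]
    exact Complex.exp_ne_zero _
  have hc : Continuous fun w => G (w + tpi) - G w := by fun_prop
  obtain ⟨k, hk⟩ := Complex.exp_eq_one_iff.1 (h1 0 (mem_univ _))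
  refine ⟨k, fun w => ?_⟩
  have h2 := const_of_exp isPreconnected_univ hc.continuousOn h1 (mem_univ w) (mem_univ 0)
  have h3 : G (w + tpi) - G w = k * tpi := h2.trans (by rw [hk])
  linear_combination h3

theorem W4 : W4_statement := by
  intro f c r hr hf h0
  have hE : ∀ w : ℂ, c + r * Complex.exp (w.im * Complex.I) ∈ sphere c r := by
    intro w
    simp [Complex.norm_exp_ofReal_mul_I, abs_of_pos hr]
  have hc : Continuous fun w : ℂ => c + r * Complex.exp (w.im * Complex.I) := by fun_prop
  obtain ⟨G, hG, hG1⟩ := exists_log (F := fun w => f (c + r * Complex.exp (w.im * Complex.I)))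
    (hf.comp_continuous hc hE) (fun w => h0 _ (hE w))
  obtain ⟨k, hk⟩ := exists_period hG hG1 (by
    intro w
    have : Complex.exp (((w + tpi).im : ℝ) * Complex.I) = Complex.exp (w.im * Complex.I) := by
      have e1 : (w + tpi).im = w.im + 2 * Real.pi := by simp [tpi]
      rw [e1]
      push_cast
      rw [add_mul, Complex.exp_add, Complex.exp_two_pi_mul_I, mul_one]
    simp only [this])
  refine ⟨k, hasWinding_of_log hr hG hk fun z hz => ?_⟩
  rw [← hG1, ← sphere_eq hr hz]

theorem W5 : W5_statement := by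
  rintro f g c r m hr hf hg hlt ⟨h, hh, hhf⟩
  have hf0 : ∀ z ∈ sphere c r, f z ≠ 0 := by
    intro z hz h
    have := hlt z hz
    rw [h, norm_zero] at this
    exact absurd this (not_lt.2 (norm_nonneg _))
  have hs : ∀ z ∈ sphere c r, g z / f z ∈ Complex.slitPlane := by
    intro z hz
    have h1 : ‖g z / f z - 1‖ < 1 := by
      have h2 : g z / f z - 1 = (g z - f z) / f z := by
        field_simp [hf0 z hz]
      rw [h2, norm_div, div_lt_one (norm_pos_iff.2 (hf0 z hz))]
      exact hlt z hz
    have h3 : g z / f z ∈ ball (1 : ℂ) 1 := by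
      rw [mem_ball, dist_eq_norm]
      exact h1
    exact Complex.ball_one_subset_slitPlane h3
  refine ⟨fun z => h z + Complex.log (g z / f z), hh.add ?_, fun z hz => ?_⟩
  · exact (hg.div hf hf0).clog hs
  · have h1 : g z / f z ≠ 0 := Complex.slitPlane_ne_zero (hs z hz)
    rw [Complex.exp_add, Complex.exp_log h1, ← mul_assoc, ← hhf z hz,
      mul_div_cancel₀ _ (hf0 z hz)]

theorem hasWinding_zpow {c a : ℂ} {r : ℝ} (ha : a ≠ 0) (m : ℤ) :
    HasWinding (fun z => a * (z - c) ^ m) c r m :=
  ⟨fun _ => Complex.log a, continuousOn_const, fun z _ => by rw [Complex.exp_log ha]; ring⟩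

theorem W6 : W6_statement := by
  intro f c a m ha hc ho
  have ha' : 0 < ‖a‖ := norm_pos_iff.2 ha
  have h1 := ho.def (half_pos ha')
  have h2 := hc.and h1
  rw [eventually_nhdsWithin_iff, Metric.eventually_nhds_iff] at h2
  obtain ⟨ε, hε, h2⟩ := h2
  have h3 : ∀ᶠ r in 𝓝[>] (0 : ℝ), r ∈ Ioo (0 : ℝ) ε := Ioo_mem_nhdsGT hε
  filter_upwards [h3] with r hr
  have hz1 : ∀ z ∈ sphere c r, dist z c < ε ∧ z ∈ ({c}ᶜ : Set ℂ) := by
    intro z hz
    have h4 : dist z c = r := hz
    refine ⟨by rw [h4]; exact hr.2, ?_⟩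
    intro h5
    have h6 : z = c := h5
    exact sub_ne hr.1 hz (by rw [h6, sub_self])
  refine W5 (fun z => a * (z - c) ^ m) f c r m hr.1 ?_ ?_ ?_ (hasWinding_zpow ha m)
  · intro z hz
    have h5 : ContinuousAt (fun z => (z - c) ^ m) z :=
      (continuousAt_id.sub continuousAt_const).zpow₀ m (Or.inl (sub_ne hr.1 hz))
    exact (continuousAt_const.mul h5).continuousWithinAt
  · intro z hz
    exact ((h2 (hz1 z hz).1 (hz1 z hz).2).1).continuousWithinAt
  · intro z hz
    have h5 := (h2 (hz1 z hz).1 (hz1 z hz).2).2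
    have h6 : 0 < ‖(z - c) ^ m‖ := norm_pos_iff.2 (zpow_ne_zero _ (sub_ne hr.1 hz))
    refine lt_of_le_of_lt h5 ?_
    rw [norm_mul]
    have : 0 < ‖a‖ * ‖(z - c) ^ m‖ := mul_pos ha' h6
    linarith

theorem W7 : W7_statement := by
  intro f c r₁ r₂ m h1 h12 hf h0 hw
  have h2 : 0 < r₂ := lt_of_lt_of_le h1 h12
  set P : ℂ → ℂ := fun w => c + (max r₁ (min r₂ (Real.exp w.re)) : ℝ) *
    Complex.exp (w.im * Complex.I) with hP
  have hPc : Continuous P := by
    have : Continuous fun w : ℂ => max r₁ (min r₂ (Real.exp w.re)) := by fun_prop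
    have := Complex.continuous_ofReal.comp this
    simp only [Function.comp_def] at this
    fun_prop
  have hPm : ∀ w, P w ∈ closedBall c r₂ \ ball c r₁ := by
    intro w
    have h3 : dist (P w) c = max r₁ (min r₂ (Real.exp w.re)) := by
      rw [dist_eq_norm, hP]
      simp only [add_sub_cancel_left, norm_mul, Complex.norm_real,
        Complex.norm_exp_ofReal_mul_I, mul_one]
      exact abs_of_nonneg (le_max_of_le_left h1.le)
    refine ⟨?_, ?_⟩
    · rw [mem_closedBall, h3]
      exact max_le h12 (min_le_left _ _)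
    · rw [mem_ball, h3, not_lt]
      exact le_max_left _ _
  obtain ⟨G, hG, hG1⟩ := exists_log (F := fun w => f (P w))
    (hf.comp_continuous hPc hPm) (fun w => h0 _ (hPm w))
  obtain ⟨k, hk⟩ := exists_period hG hG1 (by
    intro w
    have e2 : Complex.exp (((w + tpi).im : ℝ) * Complex.I) = Complex.exp (w.im * Complex.I) := by
      have e1 : (w + tpi).im = w.im + 2 * Real.pi := by simp [tpi]
      rw [e1]
      push_cast
      rw [add_mul, Complex.exp_add, Complex.exp_two_pi_mul_I, mul_one]
    have e3 : (w + tpi).re = w.re := by simp [tpi]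
    simp only [hP, e2, e3])
  have key : ∀ r, r₁ ≤ r → r ≤ r₂ → HasWinding f c r k := by
    intro r hr1 hr2
    have hr : 0 < r := lt_of_lt_of_le h1 hr1
    refine hasWinding_of_log hr hG hk fun z hz => ?_
    rw [← hG1]
    congr 1
    have h4 : ‖z - c‖ = r := by rw [← dist_eq_norm]; exact hz
    have h5 : Real.exp (Complex.log (z - c)).re = r := by
      rw [Complex.log_re, h4, Real.exp_log hr]
    simp only [hP]
    rw [h5, min_eq_right hr2, max_eq_right hr1]
    exact sphere_eq hr hz
  rw [W1 f c r₁ m k h1 hw (key r₁ le_rfl h12)]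
  exact key r₂ h12 le_rfl

end Vale.Agent.P247.H74.WWIND
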