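import Vale.Agent.P247.H74.WWIND.Wind

/-!
# P247, package W-TW: the sum rule for winding numbers on a torus
-/

open scoped ContDiff Topology
open Set MeasureTheory Filter Metric Asymptotics

noncomputable section

namespace Vale.Agent.P247.H74.WWIND

open Vale.Agent.P247.H74

/-! ### Logarithms -/

theorem log_sub_log {p q : ℂ} (hp : 0 < p.re) (hq : 0 < q.re) :
    Complex.log p - Complex.log q = Complex.log (p / q) := by
  have hp0 : p ≠ 0 := by rintro rfl; simp at hp
  have hq0 : q ≠ 0 := by rintro rfl; simp at hq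
  have h1 : Complex.exp (Complex.log p - Complex.log q) = p / q := by
    rw [Complex.exp_sub, Complex.exp_log hp0, Complex.exp_log hq0]
  rw [← h1, Complex.log_exp]
  · rw [Complex.sub_im, Complex.log_im, Complex.log_im]
    have a1 := Complex.abs_arg_lt_pi_div_two_iff.2 (Or.inl hp)
    have a2 := Complex.abs_arg_lt_pi_div_two_iff.2 (Or.inl hq)
    rw [abs_lt] at a1 a2
    linarith [a1.1, a2.2]
  · rw [Complex.sub_im, Complex.log_im, Complex.log_im]
    have a1 := Complex.abs_arg_lt_pi_div_two_iff.2 (Or.inl hp)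
    have a2 := Complex.abs_arg_lt_pi_div_two_iff.2 (Or.inl hq)
    rw [abs_lt] at a1 a2
    linarith [a1.2, a2.1]

theorem log_sub_log_neg {v : ℂ} (hv : 0 < v.im) :
    Complex.log v - Complex.log (-v) = Real.pi * Complex.I := by
  rw [Complex.log, Complex.log, norm_neg, Complex.arg_neg_eq_arg_sub_pi_of_im_pos hv]
  push_cast
  ring

/-- the corner identity -/
theorem corners {τ : ℂ} (hτ : 0 < τ.im) {x y : ℝ} (hx : 0 < x) (hx1 : x < 1) (hy : 0 < y)
    (hy1 : y < 1) (u : ℝ → ℝ → ℂ) (hu : ∀ a b, u a b = (a - x) + (b - y) * τ) :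
    (Complex.log (Complex.I / τ * u 1 1) - Complex.log (-(Complex.I / τ) * u 0 1)) -
      (Complex.log (Complex.I / τ * u 1 0) - Complex.log (-(Complex.I / τ) * u 0 0)) -
      ((Complex.log (-Complex.I * u 1 1) - Complex.log (Complex.I * u 1 0)) -
        (Complex.log (-Complex.I * u 0 1) - Complex.log (Complex.I * u 0 0))) =
      2 * Real.pi * Complex.I := by
  have hτ0 : τ ≠ 0 := by rintro rfl; simp at hτ
  have hκ : 0 < (Complex.I / τ).re := by
    rw [Complex.div_re]
    have : 0 < Complex.normSq τ := Complex.normSq_pos.2 hτ0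
    simp
    positivity
  have hre : ∀ a b : ℝ, (Complex.I / τ * u a b).re = (a - x) * (Complex.I / τ).re := by
    intro a b
    have : Complex.I / τ * u a b = ((a - x : ℝ) : ℂ) * (Complex.I / τ) + ((b - y : ℝ) : ℂ) * Complex.I
        := by
      rw [hu]
      push_cast
      field_simp
    rw [this]
    simp
  have him : ∀ a b : ℝ, (u a b).im = (b - y) * τ.im := by
    intro a b
    rw [hu]
    simp
  have huI : ∀ a b : ℝ, (-Complex.I * u a b).re = (b - y) * τ.im := by
    intro a b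
    rw [← him a b]
    simp
  have huI' : ∀ a b : ℝ, (Complex.I * u a b).re = -((b - y) * τ.im) := by
    intro a b
    rw [← him a b]
    simp
  have hu0 : ∀ a b : ℝ, b ≠ y → u a b ≠ 0 := by
    intro a b hb h
    have := him a b
    rw [h] at this
    simp only [Complex.zero_im] at this
    have h2 : (b - y) * τ.im ≠ 0 := mul_ne_zero (sub_ne_zero.2 hb) hτ.ne'
    exact h2 this.symm
  have n11 : u 1 1 ≠ 0 := hu0 1 1 hy1.ne'
  have n01 : u 0 1 ≠ 0 := hu0 0 1 hy1.ne'
  have n10 : u 1 0 ≠ 0 := hu0 1 0 hy.ne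
  have n00 : u 0 0 ≠ 0 := hu0 0 0 hy.ne
  have e1 := log_sub_log (p := Complex.I / τ * u 1 1) (q := -Complex.I * u 1 1)
    (by rw [hre]; exact mul_pos (by linarith) hκ) (by rw [huI]; exact mul_pos (by linarith) hτ)
  have e2 := log_sub_log (p := -(Complex.I / τ) * u 0 1) (q := -Complex.I * u 0 1)
    (by
      have : -(Complex.I / τ) * u 0 1 = -(Complex.I / τ * u 0 1) := by ring
      rw [this, Complex.neg_re, hre]
      have := mul_pos hx hκ
      linarith) (by rw [huI]; exact mul_pos (by linarith) hτ)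
  have e3 := log_sub_log (p := Complex.I / τ * u 1 0) (q := Complex.I * u 1 0)
    (by rw [hre]; exact mul_pos (by linarith) hκ)
    (by rw [huI']; have := mul_pos hy hτ; linarith)
  have e4 := log_sub_log (p := -(Complex.I / τ) * u 0 0) (q := Complex.I * u 0 0)
    (by
      have : -(Complex.I / τ) * u 0 0 = -(Complex.I / τ * u 0 0) := by ring
      rw [this, Complex.neg_re, hre]
      have := mul_pos hx hκ
      linarith) (by rw [huI']; have := mul_pos hy hτ; linarith)
  have c1 : Complex.I / τ * u 1 1 / (-Complex.I * u 1 1) = Complex.I * (Complex.I / τ) := by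
    field_simp
    simp
  have c2 : -(Complex.I / τ) * u 0 1 / (-Complex.I * u 0 1) = -(Complex.I * (Complex.I / τ)) := by
    field_simp
    simp
  have c3 : Complex.I / τ * u 1 0 / (Complex.I * u 1 0) = -(Complex.I * (Complex.I / τ)) := by
    field_simp
    simp
  have c4 : -(Complex.I / τ) * u 0 0 / (Complex.I * u 0 0) = Complex.I * (Complex.I / τ) := by
    field_simp
    simp
  rw [c1] at e1
  rw [c2] at e2
  rw [c3] at e3
  rw [c4] at e4
  have e5 := log_sub_log_neg (v := Complex.I * (Complex.I / τ)) (by simpa using hκ)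
  linear_combination e1 - e2 - e3 + e4 + 2 * e5

/-! ### The setting -/

/-- centres of the discs -/
def cen {N : ℕ} (τ : ℂ) (z : Fin N → ℂ) (a : Fin N × ℤ × ℤ) : ℂ := z a.1 + a.2.1 + a.2.2 * τ

/-- finitely many lattice translates in a bounded region -/
theorem finite_lattice {τ : ℂ} (hτ : 0 < τ.im) (v : ℂ) (R : ℝ) :
    {p : ℤ × ℤ | ‖v + p.1 + p.2 * τ‖ ≤ R}.Finite := by
  set A : ℝ := (R + ‖v‖) / τ.im with hA
  set A' : ℝ := R + ‖v‖ + A * ‖τ‖ with hA'
  refine Set.Finite.subset ((Set.finite_Icc (-⌈A'⌉) ⌈A'⌉).prod (Set.finite_Icc (-⌈A⌉) ⌈A⌉)) ?_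
  rintro ⟨m, n⟩ h
  simp only [mem_ofPred_eq] at h
  have h1 : ‖(m : ℂ) + n * τ‖ ≤ R + ‖v‖ := by
    have : (m : ℂ) + n * τ = (v + m + n * τ) - v := by ring
    rw [this]
    exact (norm_sub_le _ _).trans (by linarith)
  have h2 : |(n : ℝ)| * τ.im ≤ R + ‖v‖ := by
    refine le_trans ?_ h1
    refine le_trans ?_ (Complex.abs_im_le_norm _)
    simp [abs_mul, abs_of_pos hτ]
  have h3 : |(n : ℝ)| ≤ A := by
    rw [hA, le_div_iff₀ hτ]
    exact h2
  have h4 : |(m : ℝ)| ≤ A' := by
    have h5 : ‖(m : ℂ)‖ ≤ ‖(m : ℂ) + n * τ‖ + ‖(n : ℂ) * τ‖ := by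
      have : (m : ℂ) = ((m : ℂ) + n * τ) - n * τ := by ring
      conv_lhs => rw [this]
      exact norm_sub_le _ _
    have h6 : ‖(n : ℂ) * τ‖ ≤ A * ‖τ‖ := by
      rw [norm_mul]
      refine mul_le_mul_of_nonneg_right ?_ (norm_nonneg _)
      simpa using h3
    have h7 : ‖(m : ℂ)‖ = |(m : ℝ)| := by simp
    rw [← h7]
    linarith
  have key : ∀ (q : ℤ) (B : ℝ), |(q : ℝ)| ≤ B → q ∈ Icc (-⌈B⌉) ⌈B⌉ := by
    intro q B h
    rw [abs_le] at h
    refine ⟨?_, ?_⟩
    · have : (-⌈B⌉ : ℝ) ≤ q := by linarith [Int.le_ceil B, h.1]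
      exact_mod_cast this
    · have : (q : ℝ) ≤ ⌈B⌉ := by linarith [Int.le_ceil B, h.2]
      exact_mod_cast this
  exact ⟨key m A' h4, key n A h3⟩

theorem locallyFinite_discs {N : ℕ} {τ : ℂ} (hτ : 0 < τ.im) (z : Fin N → ℂ) (r : ℝ) :
    LocallyFinite fun a : Fin N × ℤ × ℤ => closedBall (cen τ z a) r := by
  intro x
  refine ⟨ball x 1, ball_mem_nhds _ one_pos, ?_⟩
  have h1 : ∀ i : Fin N, ((fun p : ℤ × ℤ => (i, p)) ''
      {p : ℤ × ℤ | ‖(z i - x) + p.1 + p.2 * τ‖ ≤ r + 1}).Finite :=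
    fun i => (finite_lattice hτ _ _).image _
  refine Set.Finite.subset (Set.finite_iUnion h1) ?_
  rintro ⟨i, m, n⟩ ⟨w, hw1, hw2⟩
  refine mem_iUnion.2 ⟨i, (m, n), ?_, rfl⟩
  simp only [mem_ofPred_eq]
  have h2 : dist w (cen τ z (i, m, n)) ≤ r := hw1
  have h3 : dist w x < 1 := hw2
  have h4 : dist (cen τ z (i, m, n)) x ≤ r + 1 := by
    have := dist_triangle_left (cen τ z (i, m, n)) x w
    linarith
  rw [dist_eq_norm] at h4
  have h5 : (z i - x) + m + n * τ = cen τ z (i, m, n) - x := by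
    simp only [cen]
    ring
  rw [h5]
  exact h4

section

variable {τ : ℂ} {N : ℕ} {z : Fin N → ℂ} {k : Fin N → ℤ} {r₀ r : ℝ} {β : ℂ → ℂ}

open Classical in
/-- the modified function, with point singularities -/
def mod (τ : ℂ) (z : Fin N → ℂ) (k : Fin N → ℤ) (r : ℝ) (g : Fin N → ℂ → ℂ) (β : ℂ → ℂ) (w : ℂ) : ℂ :=
  if h : ∃ a, w ∈ closedBall (cen τ z a) r then
    (w - cen τ z h.choose) ^ k h.choose.1 *
      Complex.exp (g h.choose.1 (w - cen τ z h.choose + z h.choose.1))
  else β w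

theorem disj_cen (hd : ∀ i j (m n : ℤ), (i ≠ j ∨ m ≠ 0 ∨ n ≠ 0) →
    Disjoint (closedBall (z i) r) (closedBall (z j + m + n * τ) r)) {a b : Fin N × ℤ × ℤ}
    {w : ℂ} (ha : w ∈ closedBall (cen τ z a) r) (hb : w ∈ closedBall (cen τ z b) r) : a = b := by
  by_contra hab
  obtain ⟨i, m, n⟩ := a
  obtain ⟨j, m', n'⟩ := b
  have h1 : i ≠ j ∨ m' - m ≠ 0 ∨ n' - n ≠ 0 := by
    by_contra h
    push Not at h
    apply hab
    rw [Prod.mk.injEq, Prod.mk.injEq]
    exact ⟨h.1, by omega, by omega⟩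
  have h2 := hd i j (m' - m) (n' - n) h1
  have h3 : w - m - n * τ ∈ closedBall (z i) r := by
    rw [mem_closedBall, dist_eq_norm] at ha ⊢
    refine le_of_eq_of_le ?_ ha
    congr 1
    simp only [cen]
    ring
  have h4 : w - m - n * τ ∈ closedBall (z j + (m' - m : ℤ) + (n' - n : ℤ) * τ) r := by
    rw [mem_closedBall, dist_eq_norm] at hb ⊢
    refine le_of_eq_of_le ?_ hb
    congr 1
    simp only [cen]
    push_cast
    ring
  exact Set.disjoint_left.1 h2 h3 h4

theorem mod_of_mem (hd : ∀ i j (m n : ℤ), (i ≠ j ∨ m ≠ 0 ∨ n ≠ 0) →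
    Disjoint (closedBall (z i) r) (closedBall (z j + m + n * τ) r)) {g : Fin N → ℂ → ℂ}
    {a : Fin N × ℤ × ℤ} {w : ℂ} (ha : w ∈ closedBall (cen τ z a) r) :
    mod τ z k r g β w = (w - cen τ z a) ^ k a.1 * Complex.exp (g a.1 (w - cen τ z a + z a.1)) := by
  have h : ∃ a, w ∈ closedBall (cen τ z a) r := ⟨a, ha⟩
  have h1 : h.choose = a := disj_cen hd h.choose_spec ha
  rw [mod, dif_pos h, h1]

theorem mod_of_notMem {g : Fin N → ℂ → ℂ} {w : ℂ} (h : ¬ ∃ a, w ∈ closedBall (cen τ z a) r) :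
    mod τ z k r g β w = β w := by
  rw [mod, dif_neg h]

theorem cen_shift (a : Fin N × ℤ × ℤ) (m n : ℤ) :
    cen τ z (a.1, a.2.1 + m, a.2.2 + n) = cen τ z a + (m + n * τ) := by
  simp only [cen]
  push_cast
  ring

theorem mem_shift {a : Fin N × ℤ × ℤ} {w : ℂ} (m n : ℤ) (h : w ∈ closedBall (cen τ z a) r) :
    w + m + n * τ ∈ closedBall (cen τ z (a.1, a.2.1 + m, a.2.2 + n)) r := by
  rw [mem_closedBall, dist_eq_norm] at h ⊢
  rw [cen_shift]
  refine le_of_eq_of_le ?_ h
  congr 1
  ring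

theorem mod_per (hd : ∀ i j (m n : ℤ), (i ≠ j ∨ m ≠ 0 ∨ n ≠ 0) →
    Disjoint (closedBall (z i) r) (closedBall (z j + m + n * τ) r)) {g : Fin N → ℂ → ℂ}
    (hβ : ∀ (m n : ℤ) z, β (z + m + n * τ) = β z) (m n : ℤ) (w : ℂ) :
    mod τ z k r g β (w + m + n * τ) = mod τ z k r g β w := by
  by_cases h : ∃ a, w ∈ closedBall (cen τ z a) r
  · obtain ⟨a, ha⟩ := h
    rw [mod_of_mem hd ha, mod_of_mem hd (mem_shift m n ha), cen_shift]
    have : w + m + n * τ - (cen τ z a + (m + n * τ)) = w - cen τ z a := by ring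
    simp only [this]
  · have h2 : ¬ ∃ a, w + m + n * τ ∈ closedBall (cen τ z a) r := by
      rintro ⟨a, ha⟩
      apply h
      have := mem_shift (-m) (-n) ha
      refine ⟨(a.1, a.2.1 + -m, a.2.2 + -n), ?_⟩
      convert this using 1
      push_cast
      ring
    rw [mod_of_notMem h, mod_of_notMem h2, hβ]

theorem mod_ne_zero (hr : r₀ < r) (hd : ∀ i j (m n : ℤ), (i ≠ j ∨ m ≠ 0 ∨ n ≠ 0) →
    Disjoint (closedBall (z i) r) (closedBall (z j + m + n * τ) r)) {g : Fin N → ℂ → ℂ}
    (h0 : ∀ w, (∀ i (m n : ℤ), r₀ < dist w (z i + m + n * τ)) → β w ≠ 0) {w : ℂ}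
    (hw : ∀ a, w ≠ cen τ z a) : mod τ z k r g β w ≠ 0 := by
  by_cases h : ∃ a, w ∈ closedBall (cen τ z a) r
  · obtain ⟨a, ha⟩ := h
    rw [mod_of_mem hd ha]
    exact mul_ne_zero (zpow_ne_zero _ (sub_ne_zero.2 (hw a))) (Complex.exp_ne_zero _)
  · rw [mod_of_notMem h]
    refine h0 w fun i m n => ?_
    by_contra h2
    push Not at h2
    exact h ⟨(i, m, n), h2.trans hr.le⟩

theorem mod_continuousAt (hτ : 0 < τ.im) (hr : r₀ < r)
    (hd : ∀ i j (m n : ℤ), (i ≠ j ∨ m ≠ 0 ∨ n ≠ 0) →
    Disjoint (closedBall (z i) r) (closedBall (z j + m + n * τ) r)) {g : Fin N → ℂ → ℂ}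
    (hg : ∀ i, Continuous (g i)) (hβ : ∀ (m n : ℤ) z, β (z + m + n * τ) = β z)
    (hgβ : ∀ i, ∀ w ∈ sphere (z i) r, β w = (w - z i) ^ k i * Complex.exp (g i w))
    (hc : ∀ w, (∀ i (m n : ℤ), r₀ < dist w (z i + m + n * τ)) → ContinuousAt β w) {x : ℂ}
    (hx : ∀ a, x ≠ cen τ z a) : ContinuousAt (mod τ z k r g β) x := by
  classical
  -- the discs which do not contain `x`
  set S : Set (Fin N × ℤ × ℤ) := {a | x ∉ closedBall (cen τ z a) r} with hS
  have hcl : IsClosed (⋃ a : S, closedBall (cen τ z a) r) := by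
    refine LocallyFinite.isClosed_iUnion ?_ fun a => isClosed_closedBall
    exact (locallyFinite_discs hτ z r).comp_injective Subtype.val_injective
  have hU : ∀ᶠ w in 𝓝 x, w ∉ ⋃ a : S, closedBall (cen τ z a) r := by
    refine hcl.isOpen_compl.mem_nhds ?_
    simp only [mem_compl_iff, mem_iUnion, not_exists]
    rintro ⟨a, ha⟩
    exact ha
  have hU' : ∀ᶠ w in 𝓝 x, ∀ a, w ∈ closedBall (cen τ z a) r → x ∈ closedBall (cen τ z a) r := by
    filter_upwards [hU] with w hw a ha
    by_contra hxa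
    exact hw (mem_iUnion.2 ⟨⟨a, hxa⟩, ha⟩)
  by_cases h : ∃ a, x ∈ closedBall (cen τ z a) r
  · obtain ⟨a, ha⟩ := h
    have hφ : ContinuousAt (fun w => (w - cen τ z a) ^ k a.1 *
        Complex.exp (g a.1 (w - cen τ z a + z a.1))) x := by
      refine ContinuousAt.mul ?_ ?_
      · exact (continuousAt_id.sub continuousAt_const).zpow₀ _ (Or.inl (sub_ne_zero.2 (hx a)))
      · exact (Complex.continuous_exp.comp ((hg _).comp (by fun_prop))).continuousAt
    have hev : ∀ᶠ w in 𝓝 x, mod τ z k r g β w = if w ∈ closedBall (cen τ z a) r then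
        (w - cen τ z a) ^ k a.1 * Complex.exp (g a.1 (w - cen τ z a + z a.1)) else β w := by
      filter_upwards [hU'] with w hw
      by_cases hwa : w ∈ closedBall (cen τ z a) r
      · rw [if_pos hwa, mod_of_mem hd hwa]
      · rw [if_neg hwa, mod_of_notMem]
        rintro ⟨b, hb⟩
        exact hwa (disj_cen hd (hw b hb) ha ▸ hb)
    rcases lt_or_eq_of_le (mem_closedBall.1 ha) with hlt | heq
    · refine hφ.congr ?_
      have : ∀ᶠ w in 𝓝 x, w ∈ ball (cen τ z a) r := isOpen_ball.mem_nhds hlt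
      filter_upwards [this] with w hw
      rw [mod_of_mem hd (ball_subset_closedBall hw)]
    · have hβc : ContinuousAt β x := by
        refine hc x fun i m n => ?_
        by_contra h2
        push Not at h2
        have h3 : x ∈ closedBall (cen τ z (i, m, n)) r := h2.trans hr.le
        have h4 := disj_cen hd h3 ha
        have h5 : dist x (cen τ z a) ≤ r₀ := by rw [← h4]; exact h2
        linarith
      have hval : (x - cen τ z a) ^ k a.1 * Complex.exp (g a.1 (x - cen τ z a + z a.1)) = β x := by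
        have e1 : x - cen τ z a + z a.1 ∈ sphere (z a.1) r := by
          rw [mem_sphere, dist_eq_norm, add_sub_cancel_right, ← dist_eq_norm]
          exact heq
        have e2 := hgβ a.1 _ e1
        rw [add_sub_cancel_right] at e2
        rw [← e2]
        have e3 := hβ a.2.1 a.2.2 (x - cen τ z a + z a.1)
        rw [← e3]
        congr 1
        simp only [cen]
        ring
      have hmx : mod τ z k r g β x = β x := by
        rw [mod_of_mem hd ha, hval]
      rw [ContinuousAt, hmx]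
      refine Tendsto.congr' (EventuallyEq.symm hev) ?_
      refine Tendsto.if ?_ ?_
      · have := hφ.tendsto
        rw [hval] at this
        exact this.mono_left inf_le_left
      · exact hβc.tendsto.mono_left inf_le_left
  · have hβc : ContinuousAt β x := by
      refine hc x fun i m n => ?_
      by_contra h2
      push Not at h2
      exact h ⟨(i, m, n), h2.trans hr.le⟩
    refine hβc.congr ?_
    filter_upwards [hU'] with w hw
    rw [mod_of_notMem]
    rintro ⟨b, hb⟩
    exact h ⟨b, hw b hb⟩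

/-! ### The function on the parallelogram -/

theorem exists_ext {f : ℂ → ℂ} {c : ℂ} {r : ℝ} {m : ℤ} (h : HasWinding f c r m) :
    ∃ g : ℂ → ℂ, Continuous g ∧ ∀ z ∈ sphere c r, f z = (z - c) ^ m * Complex.exp (g z) := by
  obtain ⟨g, hg, hg1⟩ := h
  obtain ⟨G, hG⟩ := ContinuousMap.exists_restrict_eq (X := ℂ) (Y := ℂ)
    (isClosed_sphere (x := c) (ε := r)) ⟨(sphere c r).domRestrict g, hg.domRestrict⟩
  refine ⟨G, G.continuous, fun w hw => ?_⟩
  have : G w = g w := congrArg (fun q : C(sphere c r, ℂ) => q ⟨w, hw⟩) hG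
  rw [this]
  exact hg1 w hw

/-- the projection onto the parallelogram -/
def clamp (t : ℝ) : ℝ := max 0 (min 1 t)

theorem clamp_mem (t : ℝ) : 0 ≤ clamp t ∧ clamp t ≤ 1 :=
  ⟨le_max_left _ _, max_le zero_le_one (min_le_left _ _)⟩

theorem clamp_of_mem {t : ℝ} (h0 : 0 ≤ t) (h1 : t ≤ 1) : clamp t = t := by
  rw [clamp, min_eq_right h1, max_eq_right h0]

theorem continuous_clamp : Continuous clamp := by unfold clamp; fun_prop

theorem exists_G (hτ : 0 < τ.im) (hr0 : 0 < r₀) (hr : r₀ < r)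
    (hd : ∀ i j (m n : ℤ), (i ≠ j ∨ m ≠ 0 ∨ n ≠ 0) →
    Disjoint (closedBall (z i) r) (closedBall (z j + m + n * τ) r)) {g : Fin N → ℂ → ℂ}
    (hg : ∀ i, Continuous (g i)) (hβ : ∀ (m n : ℤ) z, β (z + m + n * τ) = β z)
    (hgβ : ∀ i, ∀ w ∈ sphere (z i) r, β w = (w - z i) ^ k i * Complex.exp (g i w))
    (hc : ∀ w, (∀ i (m n : ℤ), r₀ < dist w (z i + m + n * τ)) → ContinuousAt β w)
    (h0 : ∀ w, (∀ i (m n : ℤ), r₀ < dist w (z i + m + n * τ)) → β w ≠ 0)
    {x y : Fin N → ℝ} (hz : ∀ i, z i = x i + y i * τ) (hx : ∀ i, 0 < x i ∧ x i < 1)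
    (hy : ∀ i, 0 < y i ∧ y i < 1) :
    ∃ G : ℂ → ℂ, Continuous G ∧ ∀ s t : ℝ, 0 ≤ s → s ≤ 1 → 0 ≤ t → t ≤ 1 →
      (∀ i, (s : ℂ) + t * τ ≠ z i) → mod τ z k r g β (s + t * τ) =
        (∏ i, ((s : ℂ) + t * τ - z i) ^ k i) * Complex.exp (G (s + t * Complex.I)) := by
  classical
  have hrp : 0 < r := hr0.trans hr
  set B : ℂ → ℂ := fun w => if h : ∃ j, w ∈ closedBall (z j) r then
    Complex.exp (g h.choose w) / ∏ i ∈ Finset.univ.erase h.choose, (w - z i) ^ k i else
    mod τ z k r g β w / ∏ i, (w - z i) ^ k i with hB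
  have hcen : ∀ j, cen τ z (j, 0, 0) = z j := by intro j; simp [cen]
  have hz0 : ∀ i j, z i = z j → i = j := by
    intro i j hij
    have h1 := disj_cen (a := (i, 0, 0)) (b := (j, 0, 0)) (w := z i) (τ := τ) hd
      (by rw [hcen]; exact mem_closedBall_self hrp.le)
      (by rw [hcen, ← hij]; exact mem_closedBall_self hrp.le)
    exact congrArg Prod.fst h1
  have hdz : ∀ {i j : Fin N} {w : ℂ}, w ∈ closedBall (z i) r → w ∈ closedBall (z j) r → i = j := by
    intro i j w hi hj
    rw [← hcen] at hi hj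
    exact congrArg Prod.fst (disj_cen hd hi hj)
  have hB1 : ∀ j, ∀ w ∈ closedBall (z j) r, B w =
      Complex.exp (g j w) / ∏ i ∈ Finset.univ.erase j, (w - z i) ^ k i := by
    intro j w hw
    have h : ∃ j, w ∈ closedBall (z j) r := ⟨j, hw⟩
    have h1 : h.choose = j := hdz h.choose_spec hw
    simp only [hB]
    rw [dif_pos h, h1]
  have hB2 : ∀ w, (∀ i, w ≠ z i) → B w = mod τ z k r g β w / ∏ i, (w - z i) ^ k i := by
    intro w hw
    by_cases h : ∃ j, w ∈ closedBall (z j) r
    · obtain ⟨j, hj⟩ := h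
      have hj' : w ∈ closedBall (cen τ z (j, 0, 0)) r := by rw [hcen]; exact hj
      rw [hB1 j w hj, mod_of_mem hd hj', hcen]
      simp only [sub_add_cancel]
      rw [← Finset.mul_prod_erase Finset.univ _ (Finset.mem_univ j), mul_div_mul_left]
      exact zpow_ne_zero _ (sub_ne_zero.2 (hw j))
    · simp only [hB]
      rw [dif_neg h]
  -- the parallelogram
  have hQ : ∀ s t : ℝ, 0 ≤ s → s ≤ 1 → 0 ≤ t → t ≤ 1 → (∀ i, (s : ℂ) + t * τ ≠ z i) →
      ∀ a, (s : ℂ) + t * τ ≠ cen τ z a := by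
    rintro s t hs0 hs1 ht0 ht1 hw ⟨i, m, n⟩ h
    simp only [cen] at h
    rw [hz i] at h
    have h1 := congrArg Complex.im h
    simp at h1
    have h2 : (t - (y i + n)) * τ.im = 0 := by linarith
    have h3 : t = y i + n := by
      rcases mul_eq_zero.1 h2 with h | h
      · linarith
      · exact absurd h hτ.ne'
    have h4 := congrArg Complex.re h
    simp at h4
    have h5 : s = x i + m := by
      rw [h3] at h4
      linarith
    have n0 : n = 0 := by
      have a1 : (n : ℝ) < 1 := by linarith [(hy i).1]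
      have a2 : (-1 : ℝ) < n := by linarith [(hy i).2]
      have a3 : n < 1 := by exact_mod_cast a1
      have a4 : -1 < n := by exact_mod_cast a2
      omega
    have m0 : m = 0 := by
      have a1 : (m : ℝ) < 1 := by linarith [(hx i).1]
      have a2 : (-1 : ℝ) < m := by linarith [(hx i).2]
      have a3 : m < 1 := by exact_mod_cast a1
      have a4 : -1 < m := by exact_mod_cast a2
      omega
    apply hw i
    rw [h3, h5, hz i, n0, m0]
    simp
  have hP0 : ∀ w, (∀ i, w ≠ z i) → ∀ i ∈ (Finset.univ : Finset (Fin N)), (w - z i) ^ k i ≠ 0 :=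
    fun w hw i _ => zpow_ne_zero _ (sub_ne_zero.2 (hw i))
  have hBc : ∀ s t : ℝ, 0 ≤ s → s ≤ 1 → 0 ≤ t → t ≤ 1 →
      ContinuousAt B (s + t * τ) ∧ B (s + t * τ) ≠ 0 := by
    intro s t hs0 hs1 ht0 ht1
    by_cases hw : ∀ i, (s : ℂ) + t * τ ≠ z i
    · have hw' := hQ s t hs0 hs1 ht0 ht1 hw
      refine ⟨?_, ?_⟩
      · have h1 : ContinuousAt (fun w => mod τ z k r g β w / ∏ i, (w - z i) ^ k i) (s + t * τ) := by
          refine ContinuousAt.div (mod_continuousAt hτ hr hd hg hβ hgβ hc hw') ?_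
            (Finset.prod_ne_zero_iff.2 (hP0 _ hw))
          refine tendsto_finsetProd _ fun i _ => ?_
          exact ((continuousAt_id.sub continuousAt_const).zpow₀ (k i)
            (Or.inl (sub_ne_zero.2 (hw i)))).tendsto
        refine h1.congr ?_
        have h2 : ∀ᶠ w in 𝓝 ((s : ℂ) + t * τ), ∀ i, w ≠ z i := by
          rw [eventually_all]
          intro i
          exact isOpen_ne.mem_nhds (hw i)
        filter_upwards [h2] with w hw
        exact (hB2 w hw).symm
      · rw [hB2 _ hw]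
        exact div_ne_zero (mod_ne_zero hr hd h0 hw') (Finset.prod_ne_zero_iff.2 (hP0 _ hw))
    · push Not at hw
      obtain ⟨j, hj⟩ := hw
      rw [hj]
      have h1 : ∀ i ∈ Finset.univ.erase j, (z j - z i) ^ k i ≠ 0 := by
        intro i hi
        refine zpow_ne_zero _ (sub_ne_zero.2 fun h => ?_)
        exact (Finset.ne_of_mem_erase hi) (hz0 _ _ h).symm
      refine ⟨?_, ?_⟩
      · have h2 : ContinuousAt (fun w => Complex.exp (g j w) /
            ∏ i ∈ Finset.univ.erase j, (w - z i) ^ k i) (z j) := by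
          refine ContinuousAt.div ?_ ?_ (Finset.prod_ne_zero_iff.2 h1)
          · exact (Complex.continuous_exp.comp (hg j)).continuousAt
          · refine tendsto_finsetProd _ fun i hi => ?_
            refine ((continuousAt_id.sub continuousAt_const).zpow₀ (k i) (Or.inl ?_)).tendsto
            refine sub_ne_zero.2 fun h => ?_
            exact (Finset.ne_of_mem_erase hi) (hz0 _ _ h).symm
        refine h2.congr ?_
        filter_upwards [isOpen_ball.mem_nhds (mem_ball_self hrp)] with w hw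
        exact (hB1 j w (ball_subset_closedBall hw)).symm
      · rw [hB1 j _ (mem_closedBall_self hrp.le)]
        exact div_ne_zero (Complex.exp_ne_zero _) (Finset.prod_ne_zero_iff.2 h1)
  obtain ⟨G, hG, hG1⟩ := exists_log
    (F := fun ζ => B ((clamp ζ.re : ℝ) + (clamp ζ.im : ℝ) * τ))
    (by
      rw [continuous_iff_continuousAt]
      intro ζ
      have h1 := (hBc (clamp ζ.re) (clamp ζ.im) (clamp_mem _).1 (clamp_mem _).2 (clamp_mem _).1
        (clamp_mem _).2).1
      refine ContinuousAt.comp (g := B)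
        (f := fun ζ : ℂ => (clamp ζ.re : ℂ) + (clamp ζ.im : ℂ) * τ) h1 ?_
      refine Continuous.continuousAt ?_
      have c1 : Continuous fun ζ : ℂ => clamp ζ.re := continuous_clamp.comp Complex.continuous_re
      have c2 : Continuous fun ζ : ℂ => clamp ζ.im := continuous_clamp.comp Complex.continuous_im
      fun_prop)
    (fun ζ => (hBc (clamp ζ.re) (clamp ζ.im) (clamp_mem _).1 (clamp_mem _).2 (clamp_mem _).1
        (clamp_mem _).2).2)
  refine ⟨G, hG, fun s t hs0 hs1 ht0 ht1 hw => ?_⟩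
  rw [← hG1]
  have e1 : ((s : ℂ) + t * Complex.I).re = s := by simp
  have e2 : ((s : ℂ) + t * Complex.I).im = t := by simp
  rw [e1, e2, clamp_of_mem hs0 hs1, clamp_of_mem ht0 ht1, hB2 _ hw,
    mul_div_cancel₀ _ (Finset.prod_ne_zero_iff.2 (hP0 _ hw))]

theorem zpow_exp {p q : ℂ} (hp : p ≠ 0) (hq : q ≠ 0) (m : ℤ) :
    Complex.exp (m * (Complex.log p - Complex.log q)) = p ^ m / q ^ m := by
  rw [mul_sub, Complex.exp_sub, exp_log_zpow hp, exp_log_zpow hq]

/-- one pair of opposite sides -/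
theorem side {G : ℝ → ℂ} {G' : ℝ → ℂ} (hG : Continuous G) (hG' : Continuous G')
    {k : Fin N → ℤ} {p q : Fin N → ℝ → ℂ} (hp : ∀ i, Continuous (p i)) (hq : ∀ i, Continuous (q i))
    (hp0 : ∀ i t, 0 < (p i t).re) (hq0 : ∀ i t, 0 < (q i t).re) {c : ℂ} (hc : c ≠ 0)
    (h : ∀ t, 0 ≤ t → t ≤ 1 → (∏ i, (c * p i t) ^ k i) * Complex.exp (G t) =
      (∏ i, (-(c * q i t)) ^ k i) * Complex.exp (G' t)) :
    G 1 - G' 1 + ∑ i, k i * (Complex.log (p i 1) - Complex.log (q i 1)) =
    G 0 - G' 0 + ∑ i, k i * (Complex.log (p i 0) - Complex.log (q i 0)) := by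
  have hp1 : ∀ i t, p i t ≠ 0 := by
    intro i t h
    have := hp0 i t
    rw [h] at this
    simp at this
  have hq1 : ∀ i t, q i t ≠ 0 := by
    intro i t h
    have := hq0 i t
    rw [h] at this
    simp at this
  set F : ℝ → ℂ := fun t => G t - G' t + ∑ i, k i * (Complex.log (p i t) - Complex.log (q i t))
    with hF
  have hFc : Continuous F := by
    have h1 : ∀ i, Continuous fun t => Complex.log (p i t) := fun i =>
      (hp i).clog fun t => Or.inl (hp0 i t)
    have h2 : ∀ i, Continuous fun t => Complex.log (q i t) := fun i =>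
      (hq i).clog fun t => Or.inl (hq0 i t)
    exact (hG.sub hG').add (continuous_finsetSum _ fun i _ => continuous_const.mul ((h1 i).sub (h2 i)))
  have hK : ∀ t, 0 ≤ t → t ≤ 1 → Complex.exp (F t) = ∏ i, (-1 : ℂ) ^ k i := by
    intro t h0 h1
    have e1 := h t h0 h1
    simp only [hF]
    rw [Complex.exp_add, Complex.exp_sum, Complex.exp_sub]
    have e2 : ∏ i, Complex.exp (k i * (Complex.log (p i t) - Complex.log (q i t))) =
        (∏ i, p i t ^ k i) / ∏ i, q i t ^ k i := by
      rw [← Finset.prod_div_distrib]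
      exact Finset.prod_congr rfl fun i _ => zpow_exp (hp1 i t) (hq1 i t) _
    rw [e2]
    have e3 : ∏ i, (c * p i t) ^ k i = (∏ i, c ^ k i) * ∏ i, p i t ^ k i := by
      rw [← Finset.prod_mul_distrib]
      exact Finset.prod_congr rfl fun i _ => mul_zpow _ _ _
    have e4 : ∏ i, (-(c * q i t)) ^ k i =
        (∏ i, (-1 : ℂ) ^ k i) * ((∏ i, c ^ k i) * ∏ i, q i t ^ k i) := by
      rw [← Finset.prod_mul_distrib, ← Finset.prod_mul_distrib]
      refine Finset.prod_congr rfl fun i _ => ?_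
      rw [← mul_zpow, ← mul_zpow]
      congr 1
      ring
    rw [e3, e4] at e1
    have n1 : (∏ i, c ^ k i) ≠ 0 := Finset.prod_ne_zero_iff.2 fun i _ => zpow_ne_zero _ hc
    have n2 : (∏ i, q i t ^ k i) ≠ 0 := Finset.prod_ne_zero_iff.2 fun i _ => zpow_ne_zero _ (hq1 i t)
    have n3 := Complex.exp_ne_zero (G' t)
    rw [div_mul_div_comm, div_eq_iff (mul_ne_zero n3 n2)]
    have e5 : (∏ i, c ^ k i) * ((Complex.exp (G t)) * ∏ i, p i t ^ k i) =
        (∏ i, c ^ k i) * ((∏ i, (-1 : ℂ) ^ k i) * (Complex.exp (G' t) * ∏ i, q i t ^ k i)) := by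
      linear_combination e1
    exact mul_left_cancel₀ n1 e5
  have h2 := const_of_exp (S := Icc (0 : ℝ) 1) (F := fun t => F t - F 0) isPreconnected_Icc
    (hFc.sub continuous_const).continuousOn
    (fun t ht => by
      rw [Complex.exp_sub, hK t ht.1 ht.2, hK 0 le_rfl zero_le_one, div_self]
      exact Finset.prod_ne_zero_iff.2 fun i _ => zpow_ne_zero _ (by norm_num))
    (x := 1) (y := 0) (right_mem_Icc.2 zero_le_one) (left_mem_Icc.2 zero_le_one)
  have h3 : F 1 = F 0 := by linear_combination h2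
  exact h3

/-- the sum rule for centres in the open parallelogram -/
theorem TW1 (hτ : 0 < τ.im) (hr0 : 0 < r₀) (hr : r₀ < r)
    (hd : ∀ i j (m n : ℤ), (i ≠ j ∨ m ≠ 0 ∨ n ≠ 0) →
    Disjoint (closedBall (z i) r) (closedBall (z j + m + n * τ) r))
    (hβ : ∀ (m n : ℤ) z, β (z + m + n * τ) = β z)
    (hw : ∀ i, HasWinding β (z i) r (k i))
    (hc : ∀ w, (∀ i (m n : ℤ), r₀ < dist w (z i + m + n * τ)) → ContinuousAt β w)
    (h0 : ∀ w, (∀ i (m n : ℤ), r₀ < dist w (z i + m + n * τ)) → β w ≠ 0)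
    {x y : Fin N → ℝ} (hz : ∀ i, z i = x i + y i * τ) (hx : ∀ i, 0 < x i ∧ x i < 1)
    (hy : ∀ i, 0 < y i ∧ y i < 1) : ∑ i, k i = 0 := by
  choose g hg hgβ using fun i => exists_ext (hw i)
  obtain ⟨G, hG, hG1⟩ := exists_G hτ hr0 hr hd hg hβ hgβ hc h0 hz hx hy
  have hτ0 : τ ≠ 0 := by rintro rfl; simp at hτ
  have hκ : 0 < (Complex.I / τ).re := by
    rw [Complex.div_re]
    have : 0 < Complex.normSq τ := Complex.normSq_pos.2 hτ0
    simp
    positivity
  -- no centre on the boundary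
  have hne : ∀ s t : ℝ, (s = 0 ∨ s = 1 ∨ t = 0 ∨ t = 1) → ∀ i, (s : ℂ) + t * τ ≠ z i := by
    intro s t h i hi
    rw [hz i] at hi
    have h1 := congrArg Complex.im hi
    simp at h1
    have h3 : t = y i := by
      rcases h1 with h | h
      · exact h
      · exact absurd h hτ.ne'
    have h4 := congrArg Complex.re hi
    simp [h3] at h4
    rcases h with h | h | h | h <;> linarith [(hx i).1, (hx i).2, (hy i).1, (hy i).2]
  set u : Fin N → ℝ → ℝ → ℂ := fun i a b => (a - x i) + (b - y i) * τ with hu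
  have hu1 : ∀ i (a b : ℝ), (a : ℂ) + b * τ - z i = u i a b := by
    intro i a b
    simp only [hu, hz i]
    ring
  have hre : ∀ i (a b : ℝ), (Complex.I / τ * u i a b).re = (a - x i) * (Complex.I / τ).re := by
    intro i a b
    have : Complex.I / τ * u i a b = ((a - x i : ℝ) : ℂ) * (Complex.I / τ) +
        ((b - y i : ℝ) : ℂ) * Complex.I := by
      simp only [hu]
      push_cast
      field_simp
    rw [this]
    simp
  have him : ∀ i (a b : ℝ), (u i a b).im = (b - y i) * τ.im := by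
    intro i a b
    simp [hu]
  have hper1 : ∀ t : ℝ, mod τ z k r g β ((1 : ℝ) + t * τ) = mod τ z k r g β ((0 : ℝ) + t * τ) := by
    intro t
    have := mod_per (k := k) (g := g) hd hβ 1 0 ((0 : ℝ) + t * τ)
    rw [← this]
    congr 1
    push_cast
    ring
  have hper2 : ∀ s : ℝ, mod τ z k r g β (s + (1 : ℝ) * τ) = mod τ z k r g β (s + (0 : ℝ) * τ) := by
    intro s
    have := mod_per (k := k) (g := g) hd hβ 0 1 (s + (0 : ℝ) * τ)
    rw [← this]
    congr 1
    push_cast
    ring
  have D := side (N := N) (k := k) (G := fun t => G ((1 : ℝ) + t * Complex.I))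
    (G' := fun t => G ((0 : ℝ) + t * Complex.I)) (by fun_prop) (by fun_prop)
    (p := fun i t => Complex.I / τ * u i 1 t) (q := fun i t => -(Complex.I / τ) * u i 0 t)
    (by intro i; simp only [hu]; fun_prop) (by intro i; simp only [hu]; fun_prop)
    (by intro i t; rw [hre]; exact mul_pos (by linarith [(hx i).2]) hκ)
    (by
      intro i t
      have : -(Complex.I / τ) * u i 0 t = -(Complex.I / τ * u i 0 t) := by ring
      rw [this, Complex.neg_re, hre]
      have := mul_pos (hx i).1 hκ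
      linarith)
    (c := τ / Complex.I) (div_ne_zero hτ0 Complex.I_ne_zero)
    (by
      intro t h0 h1
      have e1 := hG1 1 t zero_le_one le_rfl h0 h1 (hne 1 t (by simp))
      have e2 := hG1 0 t le_rfl zero_le_one h0 h1 (hne 0 t (by simp))
      rw [hper1, e2] at e1
      simp only [hu1] at e1
      have e3 : ∀ i, τ / Complex.I * (Complex.I / τ * u i 1 t) = u i 1 t := by
        intro i
        field_simp
      have e4 : ∀ i, -(τ / Complex.I * (-(Complex.I / τ) * u i 0 t)) = u i 0 t := by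
        intro i
        field_simp
      simp only [e3, e4]
      exact e1.symm)
  have E := side (N := N) (k := k) (G := fun s => G (s + (1 : ℝ) * Complex.I))
    (G' := fun s => G (s + (0 : ℝ) * Complex.I)) (by fun_prop) (by fun_prop)
    (p := fun i s => -Complex.I * u i s 1) (q := fun i s => Complex.I * u i s 0)
    (by intro i; simp only [hu]; fun_prop) (by intro i; simp only [hu]; fun_prop)
    (by
      intro i t
      have : (-Complex.I * u i t 1).re = (u i t 1).im := by simp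
      rw [this, him]
      exact mul_pos (by linarith [(hy i).2]) hτ)
    (by
      intro i t
      have : (Complex.I * u i t 0).re = -(u i t 0).im := by simp
      rw [this, him]
      have := mul_pos (hy i).1 hτ
      linarith)
    (c := Complex.I) Complex.I_ne_zero
    (by
      intro t h0 h1
      have e1 := hG1 t 1 h0 h1 zero_le_one le_rfl (hne t 1 (by simp))
      have e2 := hG1 t 0 h0 h1 le_rfl zero_le_one (hne t 0 (by simp))
      rw [hper2, e2] at e1
      simp only [hu1] at e1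
      have e3 : ∀ i, Complex.I * (-Complex.I * u i t 1) = u i t 1 := by
        intro i
        rw [← mul_assoc]
        simp
      have e4 : ∀ i, -(Complex.I * (Complex.I * u i t 0)) = u i t 0 := by
        intro i
        rw [← mul_assoc]
        simp
      simp only [e3, e4]
      exact e1.symm)
  have C : ∀ i, (k i : ℂ) * ((Complex.log (Complex.I / τ * u i 1 1) -
      Complex.log (-(Complex.I / τ) * u i 0 1)) -
      (Complex.log (Complex.I / τ * u i 1 0) - Complex.log (-(Complex.I / τ) * u i 0 0)) -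
      ((Complex.log (-Complex.I * u i 1 1) - Complex.log (Complex.I * u i 1 0)) -
        (Complex.log (-Complex.I * u i 0 1) - Complex.log (Complex.I * u i 0 0)))) =
      k i * (2 * Real.pi * Complex.I) := by
    intro i
    rw [corners hτ (hx i).1 (hx i).2 (hy i).1 (hy i).2 (u i) (fun a b => rfl)]
  have C2 := Finset.sum_congr (s₁ := (Finset.univ : Finset (Fin N))) rfl fun i _ => C i
  simp only [mul_sub, Finset.sum_sub_distrib] at C2 D E
  rw [← Finset.sum_mul] at C2
  have C3 : (∑ i, (k i : ℂ)) * (2 * Real.pi * Complex.I) = 0 := by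
    rw [← C2]
    linear_combination D - E
  rcases mul_eq_zero.1 C3 with h | h
  · exact_mod_cast h
  · exact absurd h Complex.two_pi_I_ne_zero

end

theorem exists_shift {N : ℕ} (a : Fin N → ℝ) : ∃ s : ℝ, ∀ i, Int.fract (a i - s) ≠ 0 := by
  by_contra h
  push Not at h
  have h1 : (univ : Set ℝ) ⊆ range fun q : Fin N × ℤ => a q.1 - q.2 := by
    intro s _
    obtain ⟨i, hi⟩ := h s
    refine ⟨(i, ⌊a i - s⌋), ?_⟩
    have := Int.self_sub_floor (a i - s)
    rw [hi] at this
    simp only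
    linarith
  exact Set.not_countable_univ ((countable_range _).mono h1)

/-- the sum rule, for continuous functions -/
theorem TWc (τ : ℂ) (hτ : 0 < τ.im) (β : ℂ → ℂ) (hβ : ∀ (m n : ℤ) z, β (z + m + n * τ) = β z)
    (N : ℕ) (z : Fin N → ℂ) (k : Fin N → ℤ) (r₀ r : ℝ) (hr0 : 0 < r₀) (hr : r₀ < r)
    (hd : ∀ i j (m n : ℤ), (i ≠ j ∨ m ≠ 0 ∨ n ≠ 0) →
      Disjoint (closedBall (z i) r) (closedBall (z j + m + n * τ) r))
    (hC : ContinuousOn β {w | ∀ i (m n : ℤ), r₀ < dist w (z i + m + n * τ)})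
    (h0 : ∀ w, (∀ i (m n : ℤ), r₀ < dist w (z i + m + n * τ)) → β w ≠ 0)
    (hw : ∀ i, HasWinding β (z i) r (k i)) : ∑ i, k i = 0 := by
  -- coordinates
  set b : Fin N → ℝ := fun i => (z i).im / τ.im with hb
  set a : Fin N → ℝ := fun i => (z i).re - b i * τ.re with ha
  have hz : ∀ i, z i = a i + b i * τ := by
    intro i
    apply Complex.ext
    · simp [ha]
    · simp only [hb]
      simp
      field_simp
  obtain ⟨s, hs⟩ := exists_shift a
  obtain ⟨t, ht⟩ := exists_shift b
  set m : Fin N → ℤ := fun i => ⌊a i - s⌋ with hm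
  set n : Fin N → ℤ := fun i => ⌊b i - t⌋ with hn
  set w0 : ℂ := s + t * τ with hw0
  have key : ∀ i, z i = ((Int.fract (a i - s) : ℝ) : ℂ) + ((Int.fract (b i - t) : ℝ) : ℂ) * τ +
      (w0 + m i + n i * τ) := by
    intro i
    have e1 : ((Int.fract (a i - s) : ℝ) : ℂ) = a i - s - m i := by
      rw [← Int.self_sub_floor]
      push_cast
      rfl
    have e2 : ((Int.fract (b i - t) : ℝ) : ℂ) = b i - t - n i := by
      rw [← Int.self_sub_floor]
      push_cast
      rfl
    rw [e1, e2]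
    conv_lhs => rw [hz i]
    simp only [hw0]
    ring
  set z' : Fin N → ℂ := fun i => ((Int.fract (a i - s) : ℝ) : ℂ) +
    ((Int.fract (b i - t) : ℝ) : ℂ) * τ with hz'
  have key' : ∀ i, z' i = z i - (w0 + m i + n i * τ) := by
    intro i
    rw [key i]
    simp only [hz']
    ring
  have hdist : ∀ (w : ℂ) i (p q : ℤ), dist w (z' i + p + q * τ) =
      dist (w + w0) (z i + (p - m i : ℤ) + (q - n i : ℤ) * τ) := by
    intro w i p q
    rw [dist_eq_norm, dist_eq_norm, key']
    congr 1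
    push_cast
    ring
  have hreg : ∀ w : ℂ, (∀ i (p q : ℤ), r₀ < dist w (z' i + p + q * τ)) →
      ∀ i (p q : ℤ), r₀ < dist (w + w0) (z i + p + q * τ) := by
    intro w h i p q
    have := h i (p + m i) (q + n i)
    rw [hdist] at this
    simpa using this
  have hopen : IsOpen {w : ℂ | ∀ i (p q : ℤ), r₀ < dist w (z i + p + q * τ)} := by
    have h1 : IsClosed (⋃ a : Fin N × ℤ × ℤ, closedBall (cen τ z a) r₀) :=
      (locallyFinite_discs hτ z r₀).isClosed_iUnion fun a => isClosed_closedBall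
    convert h1.isOpen_compl using 1
    ext w
    simp only [mem_ofPred_eq, mem_compl_iff, mem_iUnion, mem_closedBall, not_exists, not_le]
    exact ⟨fun h a => h a.1 a.2.1 a.2.2, fun h i p q => h (i, p, q)⟩
  refine TW1 (τ := τ) (N := N) (z := z') (k := k) (r₀ := r₀) (r := r) (β := fun w => β (w + w0))
    hτ hr0 hr ?_ ?_ ?_ ?_ ?_ (x := fun i => Int.fract (a i - s)) (y := fun i => Int.fract (b i - t))
    (fun i => rfl) (fun i => ⟨lt_of_le_of_ne (Int.fract_nonneg _) (hs i).symm, Int.fract_lt_one _⟩)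
    (fun i => ⟨lt_of_le_of_ne (Int.fract_nonneg _) (ht i).symm, Int.fract_lt_one _⟩)
  · intro i j p q h
    rw [Set.disjoint_left]
    intro w h1 h2
    have h3 : i ≠ j ∨ p + m i - m j ≠ 0 ∨ q + n i - n j ≠ 0 := by
      by_contra hcon
      push Not at hcon
      obtain ⟨rfl, h5, h6⟩ := hcon
      have h7 : p = 0 := by linarith
      have h8 : q = 0 := by linarith
      simp [h7, h8] at h
    have h4 := hd i j _ _ h3
    have h5 : w + (w0 + m i + n i * τ) ∈ closedBall (z i) r := by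
      rw [mem_closedBall, dist_eq_norm] at h1 ⊢
      refine le_of_eq_of_le ?_ h1
      rw [key']
      congr 1
      ring
    have h6 : w + (w0 + m i + n i * τ) ∈
        closedBall (z j + (p + m i - m j : ℤ) + (q + n i - n j : ℤ) * τ) r := by
      rw [mem_closedBall, dist_eq_norm] at h2 ⊢
      refine le_of_eq_of_le ?_ h2
      rw [key']
      congr 1
      push_cast
      ring
    exact Set.disjoint_left.1 h4 h5 h6
  · intro p q w
    have : w + p + q * τ + w0 = (w + w0) + p + q * τ := by ring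
    simp only [this, hβ]
  · intro i
    obtain ⟨g, hg, hg1⟩ := hw i
    have hmap : ∀ w ∈ sphere (z' i) r, w + (w0 + m i + n i * τ) ∈ sphere (z i) r := by
      intro w hw
      rw [mem_sphere, dist_eq_norm] at hw ⊢
      rw [← hw, key']
      congr 1
      ring
    refine ⟨fun w => g (w + (w0 + m i + n i * τ)), hg.comp (by fun_prop) hmap, fun w hw => ?_⟩
    have e1 := hg1 _ (hmap w hw)
    have e2 : w + (w0 + m i + n i * τ) = (w + w0) + m i + n i * τ := by ring
    have e3 : β (w + (w0 + m i + n i * τ)) = β (w + w0) := by rw [e2, hβ]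
    simp only
    rw [← e3, e1, key']
    congr 2
    ring
  · intro w h
    have h1 : ContinuousAt β (w + w0) :=
      (hC.continuousAt (hopen.mem_nhds (hreg w h)))
    exact ContinuousAt.comp (g := β) (f := fun w => w + w0) h1 (by fun_prop)
  · intro w h
    exact h0 _ (hreg w h)

theorem TW : TW_statement := fun τ hτ β hβ N z k r₀ r hr0 hr hd hC h0 hw =>
  TWc τ hτ β hβ N z k r₀ r hr0 hr hd hC.continuousOn h0 hw

end Vale.Agent.P247.H74.WWIND
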